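import Vale.Agent.P223B.Defs
import Vale.Agent.P223T.LstD

/-!
# P223W: the sweeps and rounds of stage 1 in the frame; definitions and statements (helper85)

Labels are colours `j < m`.  Random families are functions `ℕ → F.Ω → X → ℝ`.
-/

open Filter Topology Set Finset
open scoped ContDiff
open Vale.Agent.P366M Vale.Agent.P366M.Gr Vale.Agent.P366M.Y.C Vale.Agent.P210G Vale.Agent.P210R
open Vale.Agent.P210U (Up)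
open Vale.Agent.P223Y Vale.Agent.P223F Vale.Agent.P223A
open Vale.Agent.P223B (ld Sg)

noncomputable section

namespace Vale.Agent.P223W

section

variable {n : ℕ} {X : Type} [Mf0 n X]

/-- an approximate step for the label with potential `V` on `U` and distribution `K` -/
structure Aps (g₀ : Fld n X) (Λ : ℝ) (U : Set X) (V K : X → ℝ) (θ a β s η d : ℝ) (g : Fld n X)
    (v : Fin n → X → ℝ) (h' ε : ℝ) (W w : X → ℝ) (v' : Fin n → X → ℝ) : Prop where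
  smW : Smooth W
  smw : Smooth w
  cc : CC ∞ v'
  w0 : ∀ x, 0 < w x
  W0 : ∀ x, 0 ≤ W x
  gW : ∀ x, ip g₀ W W x ≤ W x * (θ * W x ^ 2 + Λ)
  old : ∀ x, K x ≠ 0 → W x = V x
  new : ∀ x ∈ U, V x ≤ h' → V x ≤ W x
  e0 : 0 < ε
  e2 : ∀ x, W x * ε ≤ η
  est : ∀ x, P223T.Ap g₀ g v W K (1 - a) β s ε η w v' x
  out : ∀ x, ¬(x ∈ U ∧ V x ≤ h') → w x ≤ d

/-- the data of a sweep for one sample; `β = α / (2 s)` -/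
structure Swq (g₀ : Fld n X) (Λ : ℝ) (U : ℕ → Set X) (V K : ℕ → X → ℝ) (m : ℕ) (θ a α s η d : ℝ)
    (g : Fld n X) (h' ε : ℕ → ℝ) (W t : ℕ → X → ℝ) (vs : ℕ → Fin n → X → ℝ) : Prop where
  m0 : Met g₀
  met : Met g
  up : Up g₀ g
  cc : CC ∞ (vs 0)
  dis : Dis K m
  smt : ∀ j, Smooth (t j)
  t0 : ∀ j x, 0 < t j x
  smW : ∀ j, Smooth (W j)
  W0 : ∀ j x, 0 ≤ W j x
  aps : ∀ j < m, Aps g₀ Λ (U j) (V j) (K j) θ a (α / (2 * s)) s η d (gs g t j) (vs j) (h' j) (ε j)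
    (W j) (t j) (vs (j + 1))

variable {Γ : Type} [Group Γ] [MulAction Γ X] (F : Fr Γ)

/-- random distributions -/
structure Dr (K : ℕ → F.Ω → X → ℝ) (m : ℕ) : Prop where
  rn : ∀ j, Rn F (K j)
  dis : ∀ o, Dis (fun j => K j o) m

/-- random approximate steps exist for the label with the potential `V` on `U` -/
def Fst (g₀ : Fld n X) (θ Λ : ℝ) (U : F.Ω → Set X) (V : F.Ω → X → ℝ) : Prop :=
  ∀ a > (0 : ℝ), a ≤ 1 / 100 → ∀ᶠ β in atTop, ∀ (K : F.Ω → X → ℝ) (h s η d : ℝ)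
    (g : F.Ω → Fld n X) (v : F.Ω → Fin n → X → ℝ), Rs F K → (∀ o x, 0 ≤ K o x) →
    (∀ o x, K o x ≠ 0 → x ∈ U o ∧ V o x ≤ h) → 0 < s → 0 < η → 0 < d → Sta F g v →
    (∀ o, Up g₀ (g o)) → ∃ (h' ε : ℝ) (W w : F.Ω → X → ℝ) (v' : F.Ω → Fin n → X → ℝ), Rn F W ∧
      Rn F w ∧ Rn F (fun o x i => v' o i x) ∧ ∀ o,
        Aps g₀ Λ (U o) (V o) (K o) θ a β s η d (g o) (v o) h' ε (W o) (w o) (v' o)

variable {F}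

/-- the potential of the colour class `A` -/
def sp (A : Set F.Ω) (U : Set X) (V : X → ℝ) : F.Ω → X → ℝ :=
  Sg fun o x => (A ×ˢ U).indicator (fun p => V p.2) (o, x)

end

/-- **FST**: approximate steps at all the sites of one colour; `ϱ` is the collar function -/
def FST (n : ℕ) : Prop := ∃ C ≥ (1 : ℝ), ∀ (X Γ : Type) [Mf0 n X] [Group Γ] [MulAction Γ X],
  Deck X Γ → ∀ (F : Fr Γ) (g₀ : Fld n X) (D K₀ U : Set X) (V ϱ : X → ℝ) (θ Λ : ℝ) (A : Set F.Ω),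
  Met g₀ → (∀ (γ : Γ) x, g₀ (γ • x) = g₀ x) → IsCompact D → IsCompact K₀ → U ⊆ K₀ →
  K₀ ⊆ interior D → Smooth ϱ → (∀ x, ip g₀ ϱ ϱ x ≤ 1) → (∀ x ∈ U, ϱ x ≤ 0) →
  (∀ x ∉ K₀, 4 ≤ ϱ x) → 0 < θ → P210S.Pot g₀ θ (fun _ => Λ) (fun _ : Unit => U) (fun _ => V) →
  IsClopen A → Sep Γ A D → Fst F g₀ (C * θ) Λ (Un Γ A U) (sp A U V)

/-- **INN**: the summed inequality of a sweep, with the link -/
def INN : Prop := ∀ (n : ℕ) (X : Type) [Mf0 n X] (g₀ : Fld n X) (Λ : ℝ) (U : ℕ → Set X)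
  (V K : ℕ → X → ℝ) (m : ℕ) (θ a α s η d : ℝ) (g : Fld n X) (h' ε : ℕ → ℝ) (W t : ℕ → X → ℝ)
  (vs : ℕ → Fin n → X → ℝ) (δ r₀ : ℝ) (x : X), Swq g₀ Λ U V K m θ a α s η d g h' ε W t vs →
  0 < a → a ≤ 1 / 100 → 0 < δ → δ ≤ 1 → 0 < α → 0 < s → 0 ≤ θ → 0 ≤ r₀ → 0 ≤ Λ →
  64 * s ^ 2 * Λ ≤ α ^ 2 → 8 * s ≤ α → 0 ≤ η → 2 * (m : ℝ) ^ 2 * η ≤ 1 → ∀ r S A₀ Xs b Y : ℝ,
  r = rr r₀ t m x → S = ∑ j ∈ range m, (1 - uu (gs g t j) (t j) x ^ 2) → A₀ = aa g t m x →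
  Xs = ∑ j ∈ range m, W j x * t j x ^ 2 → b = ∑ j ∈ range m, (W j x * t j x) ^ 2 →
  Y = ∑ j ∈ range m, yy (gs g t j) (t j) x ^ 2 →
  tt g t m x ≤ S ∧ A₀ ≤ S ∧ S ≤ 2 * A₀ ∧ Xs ^ 2 ≤ b * r ∧ A₀ ^ 2 ≤ Y * r ∧
  0 ≤ ∑ j ∈ range m, hq (1 - a) (gs g t j) (t j) x ∧ ∃ P D Z : ℝ, 0 ≤ P ∧ 0 ≤ Z ∧
    (0 ≤ (1 - a) * A₀ + (1 - δ) * Xs + α * (s - r) / (2 * s) →
      ((1 - a) * A₀ + (1 - δ) * Xs + α * (s - r) / (2 * s)) ^ 2 ≤ P * r) ∧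
    D ≤ 2 * (Λ + 1) / a * r ∧ D ≤ α / (4 * s) * (S + Xs) ∧
    ∑ j ∈ range m, Dv (gs g t m) (vs m) (nv (gs g t j) (t j)) x ^ 2 ≤
      8 * P + 32 * b + 17 * Z + (2 * m + 2 * (m : ℝ) ^ 3) * η ∧
    SS δ α V g (vs 0) K m x + (∑ j ∈ range m, hq (1 - a) (gs g t j) (t j) x) / 2 + Z + P +
      (2 * δ - δ ^ 2 - 2 * θ / a) * b + a / 2 * ∑ j ∈ range m, W j x * ip (gs g t m) (t j) (t j) x +
      6 / 5 * a * Y + α / s * S + (2 - δ) * α * Xs / s - D - (2 * m * α * η / s + m * η) +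
      (ld (gs g t m) x - ld g x) + a / 16 * ∑ j ∈ range m, a2 (gs g t j) (t j) x ≤
      Rv (gs g t m) (vs m) x

/-- **SWF**: one sweep in the frame, with the link to the volume and to `Q` -/
def SWF (n : ℕ) : Prop := ∀ A ≥ (1 : ℝ), ∃ δ > (0 : ℝ), δ ≤ 1 ∧ ∃ c > (0 : ℝ), ∃ θ > (0 : ℝ),
  ∃ C > (0 : ℝ), ∃ α₀ > (0 : ℝ), ∃ ν > (0 : ℝ), ν ≤ 1 / 2 ∧ ∀ (X Γ : Type) [Mf0 n X] [Group Γ]
    [MulAction Γ X], Deck X Γ → ∀ (F : Fr Γ) (g₀ : Fld n X) (Λ : ℝ) (U : ℕ → F.Ω → Set X)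
    (V p : ℕ → F.Ω → X → ℝ) (m : ℕ) (E : F.Ω → X → ℝ) (B α : ℝ), Met g₀ → 0 ≤ Λ →
    (∀ j o, ∀ x ∈ U j o, 0 ≤ V j o x) → (∀ j < m, Fst F g₀ θ Λ (U j) (V j)) → Dr F p m →
    (∀ j o x, p j o x ≠ 0 → x ∈ U j o ∧ V j o x ≤ 0) → (∀ o x, 0 ≤ E o x ∧ E o x ≤ B) → 0 < α →
    α ≤ α₀ → ∃ s₀ > (0 : ℝ), ∀ s, 0 < s → s ≤ s₀ → ∀ η > (0 : ℝ), ∃ r₀ > (0 : ℝ), r₀ ≤ s / 16 ∧
      ∀ d > (0 : ℝ), ∀ (g : F.Ω → Fld n X) (v : F.Ω → Fin n → X → ℝ) (Q : F.Ω → X → ℝ)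
        (K : ℕ → F.Ω → X → ℝ) (h : ℝ), Gs F g₀ g v Q → Dr F K m →
        (∀ j o x, K j o x ≠ 0 → x ∈ U j o ∧ V j o x ≤ h) →
        (∀ o x, En (g o) (fun j => p j o) m x ≤ E o x) →
        ∃ (t : ℕ → F.Ω → X → ℝ) (v' : F.Ω → Fin n → X → ℝ) (Q' : F.Ω → X → ℝ)
          (K' : ℕ → F.Ω → X → ℝ) (h' : ℝ), (∀ j, Rs F (t j)) ∧
          Gs F g₀ (fun o => gs (g o) (fun j => t j o) m) v' Q' ∧ Dr F K' m ∧
          (∀ j o x, K' j o x ≠ 0 → x ∈ U j o ∧ V j o x ≤ h') ∧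
          (∀ j < m, ∀ o x, 0 < t j o x ∧ (x ∉ U j o → t j o x ≤ d)) ∧
          ∀ o (T : ℕ → X → ℝ), (T = fun j => t j o) → ∀ x,
            SS δ α (fun j => V j o) (g o) (v o) (fun j => K j o) m x +
              (ld (gs (g o) T m) x - ld (g o) x) + ν * (Q' o x - Q o x) +
              A * δ * (tt (g o) T m x ^ 2 / rr r₀ T m x) +
              (if rr r₀ T m x ≤ 3 / 4 * s then c * α ^ 2 / s else 0) - C * s * (Λ + 1) -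
              δ * s * E o x ^ 2 - η ≤
            SS δ α (fun j => V j o) (gs (g o) T m) (v' o) (fun j => K' j o) m x

/-- **RND**: one round in the frame -/
def RND (n : ℕ) : Prop := ∃ c > (0 : ℝ), ∃ C > (0 : ℝ), ∃ θ > (0 : ℝ), ∃ ν > (0 : ℝ), ν ≤ 1 / 2 ∧
  ∀ (X Γ : Type) [Mf0 n X] [Group Γ] [MulAction Γ X], Deck X Γ → ∀ (F : Fr Γ) (g₀ : Fld n X)
    (Λ : ℝ) (U : ℕ → F.Ω → Set X) (V K : ℕ → F.Ω → X → ℝ) (m : ℕ) (g : F.Ω → Fld n X)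
    (v : F.Ω → Fin n → X → ℝ) (Q : F.Ω → X → ℝ) (B τ ε κ : ℝ), Met g₀ → 0 ≤ Λ →
    (∀ j o, ∀ x ∈ U j o, 0 ≤ V j o x) → (∀ j < m, Fst F g₀ θ Λ (U j) (V j)) →
    Gs F g₀ g v Q → Dr F K m → (∀ j o x, K j o x ≠ 0 → x ∈ U j o ∧ V j o x ≤ 0) →
    (∀ o x, En (g o) (fun j => K j o) m x ≤ B) → 0 < τ → 0 < ε →
    ∃ (g' : F.Ω → Fld n X) (v' : F.Ω → Fin n → X → ℝ) (Q' φ : F.Ω → X → ℝ)
      (K' : ℕ → F.Ω → X → ℝ), Gs F g₀ g' v' Q' ∧ Dr F K' m ∧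
      (∀ j o x, K' j o x ≠ 0 → x ∈ U j o) ∧ ∀ o x (E E' : ℝ),
      E = En (g o) (fun j => K j o) m x → E' = En (g' o) (fun j => K' j o) m x →
      φ o x ∈ Icc (0 : ℝ) 1 ∧ E' ≤ C / τ + E ∧ (φ o x ≤ 1 / 2 → E' ≤ C / τ) ∧
      Rv (g o) (v o) x - C * τ * (Λ + 1) - c * τ * E ^ 2 + 32 * c * τ * E' ^ 2 + κ * φ o x - ε +
        (ld (g' o) x - ld (g o) x) + ν * (Q' o x - Q o x) ≤ Rv (g' o) (v' o) x

end Vale.Agent.P223W
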