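import Vale.Agent.P223W.Defs
import Vale.Agent.P223Q.Dm
import Vale.Agent.P210R.Sweep
import Vale.Agent.P210D.Alg
import Vale.Agent.P210V.MixB
import Vale.Agent.P210W.Sw1

/-!
# P223W: one sweep in the frame (helper85)
-/

open Filter Topology Set Finset
open scoped ContDiff
open Vale.Agent.P366M Vale.Agent.P366M.Gr Vale.Agent.P366M.Y.C Vale.Agent.P210G Vale.Agent.P210R
open Vale.Agent.P210U (Up)
open Vale.Agent.P223Y Vale.Agent.P223F Vale.Agent.P223A Vale.Agent.P223Q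
open Vale.Agent.P223B (ld Sg)

noncomputable section

namespace Vale.Agent.P223W

theorem in_alg {S₀ R₁ R₂ Hq P b Z Y H G γ α L δ a θ η E' Br μ E₁ E T X' VK Λs D₁ Zs e : ℝ}
    (h1 : S₀ + Hq / 2 + Zs + P + (2 * δ - δ ^ 2 - 2 * θ / a) * b + a / 2 * Z + 6 / 5 * a * Y + D₁ ≤
      R₁) (h2 : R₁ + G - Hq / 2 - δ / 400 * Y - δ / 400 * H - γ * α * L ≤ R₂)
    (h3 : H ≤ 8 * P + 32 * b + 17 * Zs + e) (h4 : E' ≤ (1 + η) * (Br + μ * E₁))
    (h5 : α * Br ≤ α * T - α / 2 * L + 8 * δ * Z + 2 * δ * θ * b + Λs) (h6 : E₁ ≤ E) (μ0 : 0 ≤ μ)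
    (h7 : VK ≤ (1 + η) * X') (b0 : 0 ≤ b) (Z0 : 0 ≤ Z) (Y0 : 0 ≤ Y) (L0 : 0 ≤ L) (z0 : 0 ≤ Zs)
    (α0 : 0 < α) (δ0 : 0 < δ) (k1 : 32 * δ ≤ a) (k3 : a ≤ 1 / 100) (hγ : γ ≤ 1 / 4) (η0 : 0 ≤ η)
    (η1 : η ≤ 1 / 10) (hθ : θ ≤ a * δ / 100) :
    S₀ + G + (1 - δ / 50) * P + 9 / 5 * δ * b + a * Y + D₁ - δ / 400 * e -
      (1 + η) * (α * T + (2 - δ) * α * X' + α * (μ * E) + Λs) ≤ R₂ - α * (E' + (2 - δ) * VK) := by
  have e1 : 0 ≤ 1 + η := by linarith
  obtain ⟨-, j2, -⟩ := in_co δ0 (by linarith) k3 η0 η1 hθ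
  have i1 := mul_le_mul_of_nonneg_left h4 α0.le
  have i2 := mul_le_mul_of_nonneg_left h5 e1
  have i3 := mul_le_mul_of_nonneg_left h6 (mul_nonneg (mul_nonneg e1 α0.le) μ0)
  have i4 := mul_le_mul_of_nonneg_left h7 (mul_nonneg α0.le (show 0 ≤ 2 - δ by linarith))
  have i5 := mul_le_mul_of_nonneg_left h3 δ0.le
  have i6 := mul_le_mul_of_nonneg_right (show γ ≤ (1 + η) / 2 by linarith) (mul_nonneg α0.le L0)
  have i7 := mul_le_mul_of_nonneg_right (show (1 + η) * 8 * δ ≤ a / 2 by nlinarith) Z0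
  have i8 := mul_le_mul_of_nonneg_right j2 b0
  have i9 := mul_le_mul_of_nonneg_right (show a + δ / 400 ≤ 6 / 5 * a by linarith) Y0
  have i10 := mul_le_mul_of_nonneg_right (show δ ≤ 1 by linarith) z0
  linarith

variable {n : ℕ} {X : Type} [Mf0 n X]

theorem up_of_gi {g₀ g : Fld n X} {Q : X → ℝ} (h : P223T.GI g₀ g Q) : Up g₀ g := by
  induction h with
  | base => exact P210S.up_refl _
  | step _ _ ih => exact P210S.up_trans ih (P210W.up_gb _ _)
  | mono _ _ ih => exact ih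

theorem Swq.cc_vs {g₀ g : Fld n X} {Λ : ℝ} {U : ℕ → Set X} {V K W t : ℕ → X → ℝ} {m : ℕ}
    {θ a α s η d : ℝ} {h' ε : ℕ → ℝ} {vs : ℕ → Fin n → X → ℝ}
    (S : Swq g₀ Λ U V K m θ a α s η d g h' ε W t vs) : CC ∞ (vs m) := by
  cases m with
  | zero => exact S.cc
  | succ m => exact (S.aps m m.lt_succ_self).cc

variable {Γ : Type} [Group Γ] [MulAction Γ X] {F : Fr Γ}

omit [MulAction Γ X] in
/-- random sweeps by recursion -/
theorem recF {S A : Type} (I : (F.Ω → Fld n X) → S → Prop)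
    (P : ℕ → (F.Ω → Fld n X) → S → (F.Ω → X → ℝ) → S → A → Prop)
    (H : ∀ j g v, I g v → ∃ t v' a, I (fun o => gb (g o) 1 (t o)) v' ∧ P j g v t v' a)
    {g : F.Ω → Fld n X} {v : S} (h0 : I g v) : ∃ (t : ℕ → F.Ω → X → ℝ) (vs : ℕ → S) (a : ℕ → A),
      vs 0 = v ∧ ∀ j, I (fun o => gs (g o) (fun i => t i o) j) (vs j) ∧
        P j (fun o => gs (g o) (fun i => t i o) j) (vs j) (t j) (vs (j + 1)) (a j) := by
  choose T V' a h1 h2 using H
  let σ : ℕ → {p : (F.Ω → Fld n X) × S // I p.1 p.2} := fun j => Nat.rec ⟨(g, v), h0⟩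
    (fun j p => ⟨(fun o => gb (p.1.1 o) 1 (T j _ _ p.2 o), V' j _ _ p.2), h1 j _ _ p.2⟩) j
  have e : ∀ j, (fun o => gs (g o) (fun i => T i _ _ (σ i).2 o) j) = (σ j).1.1 := fun j => by
    induction j with
    | zero => rfl
    | succ j ih => exact funext fun o => by rw [gs, congrFun ih o]
  refine ⟨fun j => T j _ _ (σ j).2, fun j => (σ j).1.2, fun j => a j _ _ (σ j).2, rfl, fun j => ?_⟩
  rw [e]
  exact ⟨(σ j).2, h2 j _ _ (σ j).2⟩

/-- the steps of a random sweep -/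
theorem sw1F (dk : Deck X Γ) {g₀ : Fld n X} {Λ θ a α s η d : ℝ} {U : ℕ → F.Ω → Set X}
    {V K : ℕ → F.Ω → X → ℝ} {m : ℕ} {g : F.Ω → Fld n X} {v : F.Ω → Fin n → X → ℝ} (hg₀ : Met g₀)
    (S : Sta F g v) (up : ∀ o, Up g₀ (g o)) (hK : Dr F K m) (H : ∀ j < m, ∀ g v, Sta F g v →
      (∀ o, Up g₀ (g o)) → ∃ (h' ε : ℝ) (W w : F.Ω → X → ℝ) (v' : F.Ω → Fin n → X → ℝ), Rn F W ∧
        Rn F w ∧ Rn F (fun o x i => v' o i x) ∧ ∀ o, Aps g₀ Λ (U j o) (V j o) (K j o) θ a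
          (α / (2 * s)) s η d (g o) (v o) h' ε (W o) (w o) (v' o)) :
    ∃ (h' ε : ℕ → ℝ) (W t : ℕ → F.Ω → X → ℝ) (vs : ℕ → F.Ω → Fin n → X → ℝ), vs 0 = v ∧
      (∀ j, Rn F (W j)) ∧ (∀ j, Rs F (t j)) ∧ Rn F (fun o x i => vs m o i x) ∧ ∀ o,
      Swq g₀ Λ (fun j => U j o) (fun j => V j o) (fun j => K j o) m θ a α s η d (g o) h' ε
        (fun j => W j o) (fun j => t j o) fun j => vs j o := by
  obtain ⟨t, vs, b, e0, hb⟩ := recF (A := ℝ × ℝ × (F.Ω → X → ℝ))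
    (fun g v => Sta F g v ∧ ∀ o, Up g₀ (g o))
    (fun j g v t v' b => (Rs F t ∧ (∀ o x, 0 < t o x) ∧ Rs F b.2.2 ∧ ∀ o x, 0 ≤ b.2.2 o x) ∧
      (j < m → ∀ o, Aps g₀ Λ (U j o) (V j o) (K j o) θ a (α / (2 * s)) s η d (g o) (v o) b.1 b.2.1
        (b.2.2 o) (t o) (v' o)))
    (fun j g v ⟨h1, h2⟩ => by
      by_cases k : j < m
      · obtain ⟨h', ε, W, w, v', rW, rw, rv, P⟩ := H j k g v h1 h2
        exact ⟨w, v', (h', ε, W), ⟨⟨rn_gb dk h1.rg rw, rv, fun o => met_g (h1.met o) (P o).smw,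
          fun o => (P o).cc⟩, fun o => P210S.up_trans (h2 o) (P210W.up_gb _ _)⟩,
          ⟨⟨rw, fun o => (P o).smw⟩, fun o => (P o).w0, ⟨rW, fun o => (P o).smW⟩,
            fun o => (P o).W0⟩, fun _ => P⟩
      · exact ⟨fun _ _ => 1, v, (0, 0, fun _ _ => 0), ⟨⟨rn_gb dk h1.rg (rn_cst 1), h1.rv,
          fun o => met_g (h1.met o) cd_const, h1.cc⟩,
          fun o => P210S.up_trans (h2 o) (P210W.up_gb _ _)⟩,
          ⟨rs_cst 1, fun _ _ => one_pos, rs_cst 0, fun _ _ => le_rfl⟩, fun k' => (k k').elim⟩)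
    (g := g) (v := v) ⟨S, up⟩
  exact ⟨_, _, fun j => (b j).2.2, t, vs, e0, fun j => (hb j).2.1.2.2.1.toRn, fun j => (hb j).2.1.1,
    (hb m).1.1.rv, fun o => ⟨hg₀, S.met o, up o, e0 ▸ S.cc o, hK.dis o, fun j => (hb j).2.1.1.sm o,
      fun j => (hb j).2.1.2.1 o, fun j => (hb j).2.1.2.2.1.sm o, fun j => (hb j).2.1.2.2.2 o,
      fun j k => (hb j).2.2 k o⟩⟩

/-- **SWF** -/
theorem swf_of (hI : INN) (hn : 1 ≤ n) : SWF n := by
  intro A A1
  obtain ⟨C₁, hC₁, hD⟩ := driftF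
  have n1 : (1 : ℝ) ≤ n := by exact_mod_cast hn
  obtain ⟨c, c0, δ, δ0, a, -, k2, k3, k4, k5, k6, k7, -⟩ :=
    consts (C := 4 * C₁) (A := 8 * A) n1 (by linarith)
  have k1 : 32 * δ ≤ a := by nlinarith
  have k2' : 4 * A * δ ≤ a := by nlinarith
  have a0 : 0 < a := by linarith
  have k6' : C₁ * n * c ≤ 1 := by nlinarith [mul_pos (mul_pos (one_pos.trans_le hC₁) (one_pos.trans_le n1)) c0]
  have k7' : C₁ * (c + c ^ 2 / (δ / 400)) ≤ 1 / 4 := by
    rw [show c ^ 2 / (δ / 400) = 4 * (c ^ 2 / (δ / 100)) by field_simp; norm_num]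
    nlinarith [mul_pos (one_pos.trans_le hC₁) c0]
  refine ⟨δ, δ0, by linarith, δ / 2000, by positivity, a * δ / 100, by positivity, 4 / a + 4,
    by positivity, min (δ / 400) (1 / C₁), by positivity, a / 16, by positivity, by linarith, ?_⟩
  intro X Γ _ _ _ dk F g₀ Λ U V p m E B α hg₀ Λ0 V0 hF hp sp hE α0 hα
  have α1 : α ≤ δ / 400 := hα.trans (min_le_left _ _)
  have α2 : C₁ * α ≤ 1 := by
    rw [mul_comm]; exact (le_div_iff₀ (by positivity)).1 (hα.trans (min_le_right _ _))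
  obtain ⟨β₀, hβ⟩ := eventually_atTop.1 ((eventually_all_finset (range m)).2
    fun j k => hF j (mem_range.1 k) a a0 k3)
  obtain ⟨s₀, s0, hs⟩ := mem_nhdsGT_iff_exists_Ioc_subset.1
    ((small (f := fun s => β₀ * (2 * s)) (b := α) (by fun_prop) (by simpa)).and
    ((small (f := fun s => 64 * s ^ 2 * Λ) (b := α ^ 2) (by fun_prop) (by simp; positivity)).and
    ((small (f := fun s => 8 * s) (b := α) (by fun_prop) (by simpa)).and
    (small (f := fun s => 10000 * s * B) (b := δ * α) (by fun_prop) (by simp; positivity)))))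
  refine ⟨s₀, s0, fun s s0 s1 η η0 => ?_⟩
  obtain ⟨s1, s2, s4, s3⟩ := hs ⟨s0, s1⟩
  obtain ⟨r₀, r0, r1, r2⟩ := small_ex
    ((small (f := fun r => r) (b := s / 16) (by fun_prop) (by positivity)).and
    (small (f := fun r => 4 * α * r * B / s) (b := η / 8) (by fun_prop) (by simpa using η0)))
  refine ⟨r₀, r0, r1, fun d d0 g v Q K h S hK sK hpE => ?_⟩
  obtain ⟨e, e0, e1, e2⟩ := small_ex
    ((small (f := fun e => e) (b := α) (by fun_prop) α0).and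
    (small (f := fun e => 4 * δ * e * B) (b := η / 8) (by fun_prop) (by simpa using η0)))
  obtain ⟨η₁, p0, p1, p2, p3⟩ := small_ex
    ((small (f := fun e => e) (b := 1 / 10) (by fun_prop) (by norm_num)).and
    ((small (f := fun e => e * α * m / r₀) (b := η / 8) (by fun_prop) (by simpa using η0)).and
    (small (f := fun e => 20 * e ^ 2 * α ^ 2 / (δ * r₀)) (b := η / 8) (by fun_prop)
      (by simpa using η0))))
  obtain ⟨η₂, q0, q1, q2, q3⟩ := small_ex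
    ((small (f := fun e => 2 * (m : ℝ) ^ 2 * e) (b := 1) (by fun_prop) (by simp)).and
    ((small (f := fun e => 2 * m * α * e / s + m * e) (b := η / 8) (by fun_prop)
      (by simpa using η0)).and
    (small (f := fun e => δ / 400 * ((2 * m + 2 * (m : ℝ) ^ 3) * e)) (b := η / 8) (by fun_prop)
      (by simpa using η0))))
  obtain ⟨d₂, d1, d2, d3⟩ := small_ex
    ((small (f := fun e => e) (b := d) (by fun_prop) d0).and
    (small (f := fun e => 8 * m * e) (b := η₁ * √r₀) (by fun_prop) (by simp; positivity)))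
  have pV : ∀ j o x, p j o x ≠ 0 → x ∈ U j o ∧ V j o x = 0 := fun j o x k =>
    ⟨(sp j o x k).1, (sp j o x k).2.antisymm (V0 j o x (sp j o x k).1)⟩
  obtain ⟨h', ε, W, t, vs, rfl, rW, rt, rv, T⟩ := sw1F (θ := a * δ / 100) (a := a) (α := α) (s := s)
    (η := η₂) (d := d₂) (Λ := Λ) (U := U) (V := V) dk hg₀ S.toSta (fun o => up_of_gi (S.gi o)) hK
    fun j k g' v' b1 b2 => hβ _ ((le_div_iff₀ (by positivity)).2 s1) j (mem_range.2 k) (K j) h s η₂
      d₂ g' v' ⟨hK.rn j, fun o => (hK.dis o).sm j⟩ (fun o => (hK.dis o).nn j) (sK j) s0 q0 d1 b1 b2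
  obtain ⟨b, rb, hb⟩ := hD n X Γ dk F g t m (1 - a) c α r₀ hn S.rg S.met rt
    (fun j o => (T o).t0 j) (by linarith) (by linarith) c0 k6' α0 α2 r0
  have hG := fun o => P210D.met_gs (S.met o) (T o).smt m
  obtain ⟨Y, hY⟩ : ∃ Y : F.Ω → X → ℝ, Y = fun o y => 2 * δ * (∑ j ∈ range m, W j o y * t j o y ^ 2 +
    e) * s * rr r₀ (fun j => t j o) m y / (α * (s + rr r₀ (fun j => t j o) m y)) := ⟨_, rfl⟩
  have mb := fun o x => P210V.mixB n X (gs (g o) (fun j => t j o) m) (fun j => t j o)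
    (fun j => W j o) m r₀ s α δ e (a * δ / 100) (Λ + 1) x (hG o) (T o).smt (T o).smW (T o).W0 r0 s0
    α0 δ0 e0 (by positivity) (by positivity) (fun j k => (P210S.ip_mono hg₀ (hG o)
      (P210S.up_trans (T o).up (up_gs _ _ m)) _ x).trans ((((T o).aps j k).gW x).trans
        (mul_le_mul_of_nonneg_left (by linarith) ((T o).W0 j x)))) (Y o) (congrFun hY o)
  obtain ⟨K', rK', hK'⟩ := mixF (η := η₁) hG rt (fun j o => (T o).t0 j) hp.rn hp.dis
    ⟨hY ▸ rn_mixY (fun j => (rt j).toRn) rW m r₀ s α δ e,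
      fun o => P210U.sm_loc fun x => ⟨Y o, (mb o x).1, EventuallyEq.rfl⟩⟩
    (fun o x => (mb o x).2.1 x) r0 d1 (by linarith) d3
  refine ⟨t, fun o i y => vs m o i y + b o i y, _, K', ∑ j ∈ range m, |h' j|, rt,
    gs_gs dk S rt m (rn_map₂ rv rb fun a b i => a i + b i) fun o => (T o).cc_vs.add (hb o).1,
    ⟨rK', fun o => (hK' o).1⟩, fun j o x k => ?_, fun j k o x => ⟨(T o).t0 j x, fun c =>
      (((T o).aps j k).out x fun c' => c c'.1).trans d2⟩, fun o t' et x => ?_⟩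
  · obtain ⟨jm, k | k⟩ := (hK' o).2.1 j x k
    · have : x ∈ U j o ∧ V j o x ≤ h' j := by
        by_contra c
        exact (((T o).aps j jm).out x c).not_gt k
      exact ⟨this.1, this.2.trans ((le_abs_self _).trans (single_le_sum (f := fun j => |h' j|)
        (fun _ _ => abs_nonneg _) (mem_range.2 jm)))⟩
    · exact ⟨(pV j o x k).1, (pV j o x k).2.le.trans (sum_nonneg fun _ _ => abs_nonneg _)⟩
  subst et
  obtain ⟨dK', z', m'⟩ := hK' o
  replace m' := m' _ rfl x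
  have dr := (hb o).2 _ rfl (vs m o) (T o).cc_vs x (δ / 400) α1 (by linarith)
  obtain ⟨-, Yp, mL, mb⟩ := mb o x
  have S := T o
  have hG := hG o
  have pE := (P210V.REn_anti (up_gs (g o) (fun j => t j o) m) S.met hG
    fun j => (hp.dis o).nn j x).trans (hpE o x)
  obtain ⟨E0, EB⟩ := hE o x
  have hY : Y o x = _ := congrFun (congrFun hY o) x
  have pV := fun j => pV j o x
  have Tc := S.cc_vs
  clear T hb hpE hE rK' rW rt rv rb hβ hF hD
  beta_reduce at *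
  obtain ⟨t, et⟩ : ∃ T : ℕ → X → ℝ, T = fun j => t j o := ⟨_, rfl⟩
  have et' : ∀ j, _ = t j := fun j => (congrFun et j).symm
  simp only [et'] at *
  have rl : r₀ ≤ rr r₀ t m x := le_add_of_nonneg_right (sum_nonneg fun _ _ => sq_nonneg _)
  have rp := r0.trans_le rl
  have T0 : 0 ≤ tt (g o) t m x := sum_nonneg fun _ _ => hG.ip_nonneg _ x
  have G0 : 0 ≤ if aa (g o) t m x ≤ 4 * α then c * aa (g o) t m x ^ 2 / (4 * n * rr r₀ t m x)
      else 0 := by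
    split_ifs
    exacts [by positivity, le_rfl]
  obtain ⟨i1, i2, i3, i4, i5, -, P, D, Z, i7, z0, i8, i9, i10, i11, i12⟩ := hI n X g₀ Λ _ _ _ m _ a α
    s η₂ d₂ _ h' ε _ t _ δ r₀ x S a0 k3 δ0 (by linarith) α0 s0 (by positivity) r0.le Λ0 s2 s4 q0.le
    q1 _ _ _ _ _ _ rfl rfl rfl rfl rfl rfl
  obtain ⟨z, hz⟩ : ∃ z, z = 2 * δ * (∑ j ∈ range m, W j o x * t j x ^ 2 + e) * s /
    (α * (s + rr r₀ t m x)) := ⟨_, rfl⟩
  have Yz : Y o x = z * rr r₀ t m x := by rw [hY, hz]; ring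
  have Rz : rr r₀ t m x + Y o x = rr r₀ t m x * (1 + z) := by rw [Yz]; ring
  have Rp : 0 < rr r₀ t m x + Y o x := add_pos rp (Yp x)
  have b0 : 0 ≤ ∑ j ∈ range m, (W j o x * t j x) ^ 2 := sum_nonneg fun _ _ => sq_nonneg _
  have vk : ∑ j ∈ range m, V j o x * K' j o x ≤
      (1 + η₁) * ((∑ j ∈ range m, W j o x * t j x ^ 2) / (rr r₀ t m x + Y o x)) := by
    rw [sum_div, mul_sum]
    refine sum_le_sum fun j k => ?_
    have W0 : 0 ≤ W j o x := S.W0 j x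
    by_cases k1 : K' j o x = 0
    · rw [k1, mul_zero]; positivity
    by_cases k2 : p j o x = 0
    · have k3 : x ∈ U j o ∧ V j o x ≤ h' j := by
        by_contra c
        exact ((z' j x k1).2.resolve_right fun c => c k2).not_ge
          ((S.aps j (mem_range.1 k)).out x c)
      have k4 := m'.1 j (mem_range.1 k)
      rw [k2, mul_zero, add_zero] at k4
      refine (mul_le_mul ((S.aps j (mem_range.1 k)).new x k3.1 k3.2) k4 (dK'.nn j x) W0).trans_eq ?_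
      ring
    · rw [(pV j k2).2, zero_mul]; positivity
  have Tm : tt (g o) t m x ≤ m := i1.trans (by
    simpa using sum_le_card_nsmul (range m) (fun j => 1 - uu (gs (g o) t j) (t j) x ^ 2) 1
      fun j _ => sub_le_self _ (sq_nonneg _))
  have al := P210D.alg _ s α δ a (c / (4 * n)) (Λ + 1) _ B e η₁ r₀ m A _ _ _ _ _ P _ D _ z r0 rl s0
    α0 δ0 (by linarith) (by linarith) k2' k3 k4 k5 (by linarith) E0 EB e0.le e1 p0.le p1 s3 T0 i1 Tm
    i2 i3 (sum_nonneg fun j _ => mul_nonneg (S.W0 j x) (sq_nonneg _)) b0 i4 i5 i7 i8 i9 i10 G0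
    (fun k => by rw [if_pos k]; exact le_of_eq (by ring)) hz
  have fin := in_alg (D₁ := α / s * ∑ j ∈ range m, (1 - uu (gs (g o) t j) (t j) x ^ 2) +
    (2 - δ) * α * (∑ j ∈ range m, W j o x * t j x ^ 2) / s - D - (2 * m * α * η₂ / s + m * η₂) +
    (ld (gs (g o) t m) x - ld (g o) x) + a / 16 * ∑ j ∈ range m, a2 (gs (g o) t j) (t j) x)
    (S₀ := SS δ α (fun j => V j o) (g o) (vs 0 o) (fun j => K j o) m x) (by linarith) dr i11 m'.2 mb
    pE (div_nonneg (add_pos r0 (Yp x)).le Rp.le) vk b0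
    (sum_nonneg fun j _ => mul_nonneg (S.W0 j x) (hG.ip_nonneg _ x))
    (sum_nonneg fun _ _ => sq_nonneg _) (hG.ip_nonneg _ x) z0 α0 δ0 k1 k3 k7' p0.le p1 le_rfl
  rw [Rz, Yz] at fin
  rw [SS, SS] at *
  unfold tt at *
  linarith

end Vale.Agent.P223W
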